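import Vale.Agent.P254.Refl.Main
import Vale.Agent.P254.Uncond.Num.AllKnots
import Vale.Agent.P254.Uncond.Req.Main

/-!
The strong isotropic constant conjecture, with strict inequality, in all large dimensions for
bodies having all but a fixed number of commuting reflection symmetries.
-/

open MeasureTheory Set
open scoped Matrix

namespace Vale.Agent.Results.P254.AllButFewReflections

open Vale.Agent.P254

theorem result : ∀ m : ℕ, ∃ N : ℕ, ∀ n : ℕ, N ≤ n →
    ∀ (K : Set (Fin n → ℝ)) (J : Finset (Fin n)), n ≤ J.card + m →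
    Convex ℝ K → IsCompact K → (interior K).Nonempty →
    (∀ i ∈ J, ∀ x ∈ K, Function.update x i (-x i) ∈ K) →
    ∀ M : Matrix (Fin n) (Fin n) ℝ, M.det ≠ 0 → ∀ b : Fin n → ℝ,
      isoConst ((fun x => M *ᵥ x + b) '' K) < isoConst (cornerSimplex n) := by
  intro m
  obtain ⟨N, hN⟩ := Refl.few_free Uncond.knots Uncond.Req.requirement_top m
  exact ⟨N, hN⟩

end Vale.Agent.Results.P254.AllButFewReflections
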