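import Vale.Agent.P254.Local.Main

/-!
The simplex is a strict local maximizer of the isotropic constant in every dimension.
-/

open MeasureTheory Set
open scoped Matrix

namespace Vale.Agent.Results.P254.LocalMaximum

open Vale.Agent.P254

theorem result : ∀ n : ℕ, 2 ≤ n → ∃ ε : ℝ, 0 < ε ∧ ∀ K : Set (Fin n → ℝ),
    Convex ℝ K → IsCompact K → ∀ M : Matrix (Fin n) (Fin n) ℝ, M.det ≠ 0 → ∀ b : Fin n → ℝ,
      let g : Fin n → ℝ := fun _ => 1 / ((n : ℝ) + 1)
      (fun y => g + (1 - ε) • (y - g)) '' cornerSimplex n ⊆ (fun x => M *ᵥ x + b) '' K →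
      (fun x => M *ᵥ x + b) '' K ⊆ (fun y => g + (1 + ε) • (y - g)) '' cornerSimplex n →
      (¬ ∃ (M' : Matrix (Fin n) (Fin n) ℝ) (b' : Fin n → ℝ), M'.det ≠ 0 ∧
        (fun x => M' *ᵥ x + b') '' K = cornerSimplex n) →
      isoConst K < isoConst (cornerSimplex n) :=
  fun _ hn => Local.local_max hn

end Vale.Agent.Results.P254.LocalMaximum
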