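import Vale.Agent.P254.Uncond.Main
import Vale.Agent.P254.Uncond.Num.AllKnots
import Vale.Agent.P254.Uncond.Req.Main

/-!
The strong isotropic constant conjecture, with strict inequality, for all affine images of
unconditional convex bodies in every dimension.
-/

open MeasureTheory Set
open scoped Matrix

namespace Vale.Agent.Results.P254.Unconditional

open Vale.Agent.P254

theorem result : ∀ (n : ℕ), 2 ≤ n → ∀ K : Set (Fin n → ℝ),
    Convex ℝ K → IsCompact K → (interior K).Nonempty →
    (∀ x ∈ K, ∀ y : Fin n → ℝ, (∀ i, |y i| = |x i|) → y ∈ K) →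
    ∀ M : Matrix (Fin n) (Fin n) ℝ, M.det ≠ 0 → ∀ b : Fin n → ℝ,
      isoConst ((fun x => M *ᵥ x + b) '' K) < isoConst (cornerSimplex n) :=
  fun n hn K hc hk hi hu M hM b =>
    Uncond.all_dims_of Uncond.knots Uncond.Req.requirement_top n hn K hc hk hi hu M hM b

end Vale.Agent.Results.P254.Unconditional
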